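import Vale.Agent.P167.N.FKA.Arms

/-! `arm_dec_all` is in `N.FKA.Arms`. -/
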