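import Vale.Agent.P167.N.FKA.Cross
import Vale.Agent.P167.N.FKA.Dual

/-!
# P167, the range `0 < q < 1`: arms and crossing loops, summary

`arm_fk` is in `N/FKA/Arms.lean`, `crossFK` in `N/FKA/Cross.lean`.
-/
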