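import Vale.Agent.P167.N.Base.Vr
import Vale.Agent.P167.H722.CrB

/-!
# P167, the range `0 < q < 1`: exponential moment of the number of the crossing loops
-/

set_option autoImplicit false

namespace Vale.Agent.P167.N.FKA

open Vale.Agent.P167.FK Vale.Agent.P167.FKA

/-- Uniform exponential moment of the number of the crossing loops. -/
theorem cross_fk {Q : ℝ} (hQ : Kit Q) (_ : F_markov) (_ : F_good) (_ : F_dual)
    (_ : RSW Q) : CrossFK Q :=
  Vale.Agent.P167.H722.cross_fk' hQ.pos hQ.le (vr hQ)

/-- Uniform exponential moment of the number of the crossing loops. -/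
theorem crossFK {Q : ℝ} (hQ : Kit Q) (_ : RSW Q) : CrossFK Q :=
  Vale.Agent.P167.H722.cross_fk' hQ.pos hQ.le (vr hQ)

end Vale.Agent.P167.N.FKA
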