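import Vale.Agent.P167.N.Kit

/-!
# P167, the range `0 < q < 1`: the arm bounds of `FKA` from the kit
-/

set_option autoImplicit false

namespace Vale.Agent.P167.N.FKA

open Vale.Agent.P167.FKA

open Finset Filter Topology MeasureTheory Vale.Agent.P167.FK

open Vale.Agent.P145.FB (PStep PConn)


variable {Q : ℝ}

theorem arm_dec (hQ : Kit Q) : ∃ α C : ℝ, 0 < α ∧ 0 < C ∧ ArmDec Q α C := by
  obtain ⟨α, C, h1, h2, h3, -⟩ := hQ.arm
  exact ⟨α, C, h1, h2, h3⟩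

/-- **GQ2 (a), (b)**: uniform decay of arms. -/
theorem arm_dec_all (hQ : Kit Q) : ∃ α C : ℝ, 0 < α ∧ 0 < C ∧ ArmDec Q α C ∧ ArmDecD Q α C :=
  hQ.arm

/-- Uniform decay of the primal and dual arms. -/
theorem arm_fk {Q : ℝ} (hQ : Kit Q) (_h : RSW Q) :
    ∃ α C : ℝ, 0 < α ∧ 0 < C ∧ ArmDec Q α C ∧ ArmDecD Q α C := hQ.arm

theorem exists_ratio {α C ε : ℝ} (hα : 0 < α) (hε : 0 < ε) :
    ∃ n : ℕ, 2 ≤ n ∧ ∀ m : ℕ, n ≤ m → C * ((1 : ℝ) / m) ^ α ≤ ε := by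
  have h1 : Tendsto (fun n : ℕ => C * ((1 : ℝ) / n) ^ α) atTop (𝓝 0) := by
    have h2 : Tendsto (fun n : ℕ => (1 : ℝ) / n) atTop (𝓝 0) :=
      tendsto_const_div_atTop_nhds_zero_nat 1
    have h3 := (h2.rpow_const (p := α) (Or.inr hα.le)).const_mul C
    rw [Real.zero_rpow hα.ne', mul_zero] at h3
    exact h3
  obtain ⟨n, hn⟩ := eventually_atTop.1 (h1.eventually (ge_mem_nhds hε))
  exact ⟨max n 2, le_max_right _ _, fun m hm => hn m ((le_max_left _ _).trans hm)⟩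

/-- Two-sided RSW for a given bound, uniformly in the boundary conditions: all the annuli of a large
ratio. -/
theorem one_arm_small (hQ : Kit Q) {ε : ℝ} (hε : 0 < ε) : ∃ n : ℕ, 2 ≤ n ∧
    ∀ (x : ℤ × ℤ) (r R : ℤ) (D : Finset (ℤ × ℤ)) (η : Cfg), 1 ≤ r → (n : ℤ) * r ≤ R → Good η →
      Bq x R \ Bq x r ⊆ D →
      Pr Q D η {ω | ArmPx x r R ω} ≤ ε ∧ Pr Q D η {ω | ArmDx x r R ω} ≤ ε := by
  obtain ⟨α, C, hα, hC, h1, h2⟩ := hQ.arm
  obtain ⟨n, hn2, hn⟩ := exists_ratio (C := C) hα hε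
  refine ⟨n, hn2, fun x r R D η hr hrR hη hD => ?_⟩
  have hn2' : (2 : ℤ) ≤ n := by exact_mod_cast hn2
  have hrR' : r ≤ R := by nlinarith
  have hr0 : (0 : ℝ) < r := by exact_mod_cast (by omega : (0 : ℤ) < r)
  have hR0 : (0 : ℝ) < R := by exact_mod_cast (by omega : (0 : ℤ) < R)
  have hn0 : (0 : ℝ) < n := by exact_mod_cast (by omega : 0 < n)
  have hrR'' : (n : ℝ) * r ≤ R := by exact_mod_cast hrR
  have h3 : C * ((r : ℝ) / R) ^ α ≤ ε := by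
    refine le_trans ?_ (hn n le_rfl)
    refine mul_le_mul_of_nonneg_left (Real.rpow_le_rpow (by positivity) ?_ hα.le) hC.le
    rw [div_le_div_iff₀ hR0 hn0]
    linarith
  have h4 := h1 x r R D η (fun _ => 1) hr hrR' hη hD (fun _ => zero_le_one) (fun _ _ _ => rfl)
  have h5 := h2 x r R D η (fun _ => 1) hr hrR' hη hD (fun _ => zero_le_one) (fun _ _ _ => rfl)
  rw [Ex_const hQ.pos] at h4 h5
  simp only [one_mul, mul_one] at h4 h5
  exact ⟨h4.trans h3, h5.trans h3⟩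

/-- Two-sided RSW, uniformly in the boundary conditions. -/
theorem two_sided (hQ : Kit Q) : ∃ (L : ℤ) (c : ℝ), 2 ≤ L ∧ 0 < c ∧ c < 1 ∧
    ∀ (x : ℤ × ℤ) (r : ℤ) (η : Cfg), 1 ≤ r → Good η →
      Pr Q (Bq x (L * r) \ Bq x r) η {ω | ArmPx x r (L * r) ω} ≤ 1 - c := by
  obtain ⟨n, hn, h⟩ := one_arm_small hQ (ε := 1 / 2) (by norm_num)
  refine ⟨n, 1 / 2, by exact_mod_cast hn, by norm_num, by norm_num, fun x r η hr hη => ?_⟩
  have := (h x r (n * r) _ η hr le_rfl hη (Finset.Subset.refl _)).1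
  linarith

end Vale.Agent.P167.N.FKA
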